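import Mathlib

/-!
# P155, literal Q1: continuous maps of the circle

`circle_map`: the lift `g` of a continuous surjective map of the circle is either monotone of degree
`±1`, or some arc is crossed by two disjoint intervals.
-/

namespace Vale.Agent.P155.Q276

open Set

/-- `g` crosses `[p, q]` upwards on `[a, b]` -/
structure Up (g : ℝ → ℝ) (a b p q : ℝ) : Prop where
  lt : a < b
  left : g a = p
  right : g b = q
  mem : ∀ t ∈ Icc a b, g t ∈ Icc p q

/-- `g` crosses `[p, q]` downwards on `[a, b]` -/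
structure Down (g : ℝ → ℝ) (a b p q : ℝ) : Prop where
  lt : a < b
  left : g a = q
  right : g b = p
  mem : ∀ t ∈ Icc a b, g t ∈ Icc p q

theorem exists_up {g : ℝ → ℝ} {a b p q : ℝ} (hg : ContinuousOn g (Icc a b)) (hab : a ≤ b)
    (ha : g a ≤ p) (hpq : p < q) (hb : q ≤ g b) :
    ∃ a1 b1, a ≤ a1 ∧ b1 ≤ b ∧ Up g a1 b1 p q := by
  obtain ⟨b1, ⟨hb1, hb1'⟩, hmin⟩ := (isCompact_Icc.inter_right
    (t := Icc a b ∩ g ⁻¹' Ici q) (hg.preimage_isClosed_of_isClosed isClosed_Icc isClosed_Ici)).exists_isLeast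
    ⟨b, right_mem_Icc.2 hab, right_mem_Icc.2 hab, hb⟩
  have hgb : g b1 = q := by
    obtain ⟨t, ht, htq⟩ := intermediate_value_Icc hb1.1 (hg.mono (Icc_subset_Icc_right hb1.2))
      ⟨ha.trans hpq.le, hb1'.2⟩
    have h1 : b1 ≤ t := hmin ⟨⟨ht.1, ht.2.trans hb1.2⟩, ⟨ht.1, ht.2.trans hb1.2⟩, htq.ge⟩
    rw [le_antisymm h1 ht.2]
    exact htq
  have hlt : ∀ t ∈ Icc a b1, g t ≤ q := by
    intro t ht
    by_contra hc
    push Not at hc
    have h1 : b1 ≤ t := hmin ⟨⟨ht.1, ht.2.trans hb1.2⟩, ⟨ht.1, ht.2.trans hb1.2⟩, hc.le⟩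
    have : t = b1 := le_antisymm ht.2 h1
    rw [this, hgb] at hc
    exact lt_irrefl _ hc
  have hg1 : ContinuousOn g (Icc a b1) := hg.mono (Icc_subset_Icc_right hb1.2)
  obtain ⟨a1, ⟨ha1, ha1'⟩, hmax⟩ := (isCompact_Icc.inter_right
    (t := Icc a b1 ∩ g ⁻¹' Iic p) (hg1.preimage_isClosed_of_isClosed isClosed_Icc isClosed_Iic)).exists_isGreatest
    ⟨a, left_mem_Icc.2 hb1.1, left_mem_Icc.2 hb1.1, ha⟩
  have hga : g a1 = p := by
    obtain ⟨t, ht, htp⟩ := intermediate_value_Icc ha1.2 (hg1.mono (Icc_subset_Icc_left ha1.1))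
      ⟨ha1'.2, by rw [hgb]; exact hpq.le⟩
    have h1 : t ≤ a1 := hmax ⟨⟨ha1.1.trans ht.1, ht.2⟩, ⟨ha1.1.trans ht.1, ht.2⟩, htp.le⟩
    rw [le_antisymm ht.1 h1]
    exact htp
  refine ⟨a1, b1, ha1.1, hb1.2, ?_, hga, hgb, ?_⟩
  · rcases ha1.2.lt_or_eq with h | h
    · exact h
    · exfalso
      rw [h, hgb] at hga
      exact hpq.ne' hga
  · intro t ht
    refine ⟨?_, hlt t ⟨ha1.1.trans ht.1, ht.2⟩⟩
    by_contra hc
    push Not at hc
    have h1 : t ≤ a1 := hmax ⟨⟨ha1.1.trans ht.1, ht.2⟩, ⟨ha1.1.trans ht.1, ht.2⟩, hc.le⟩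
    have : t = a1 := le_antisymm h1 ht.1
    rw [this, hga] at hc
    exact lt_irrefl _ hc

theorem exists_down {g : ℝ → ℝ} {a b p q : ℝ} (hg : ContinuousOn g (Icc a b)) (hab : a ≤ b)
    (ha : q ≤ g a) (hpq : p < q) (hb : g b ≤ p) :
    ∃ a1 b1, a ≤ a1 ∧ b1 ≤ b ∧ Down g a1 b1 p q := by
  obtain ⟨a1, b1, h1, h2, h3⟩ := exists_up (g := fun t => - g t) (p := -q) (q := -p) hg.neg hab
    (by linarith) (by linarith) (by linarith)
  refine ⟨a1, b1, h1, h2, h3.lt, by linarith [h3.left], by linarith [h3.right], ?_⟩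
  intro t ht
  have := h3.mem t ht
  exact ⟨by linarith [this.2], by linarith [this.1]⟩

theorem Up.sub {g : ℝ → ℝ} {a b p q p' q' : ℝ} (h : Up g a b p q) (hg : ContinuousOn g (Icc a b))
    (h1 : p ≤ p') (h2 : p' < q') (h3 : q' ≤ q) : ∃ a1 b1, a ≤ a1 ∧ b1 ≤ b ∧ Up g a1 b1 p' q' :=
  exists_up hg h.lt.le (by rw [h.left]; exact h1) h2 (by rw [h.right]; exact h3)

theorem Down.sub {g : ℝ → ℝ} {a b p q p' q' : ℝ} (h : Down g a b p q)
    (hg : ContinuousOn g (Icc a b)) (h1 : p ≤ p') (h2 : p' < q') (h3 : q' ≤ q) :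
    ∃ a1 b1, a ≤ a1 ∧ b1 ≤ b ∧ Down g a1 b1 p' q' :=
  exists_down hg h.lt.le (by rw [h.left]; exact h3) h2 (by rw [h.right]; exact h1)

/-- crossing in one of the two directions -/
def Cr (g : ℝ → ℝ) (a b p q : ℝ) : Prop := Up g a b p q ∨ Down g a b p q

theorem Cr.lt {g : ℝ → ℝ} {a b p q : ℝ} (h : Cr g a b p q) : a < b := h.elim (·.lt) (·.lt)

theorem Cr.sub {g : ℝ → ℝ} {a b p q p' q' : ℝ} (h : Cr g a b p q) (hg : ContinuousOn g (Icc a b))
    (h1 : p ≤ p') (h2 : p' < q') (h3 : q' ≤ q) : ∃ a1 b1, a ≤ a1 ∧ b1 ≤ b ∧ Cr g a1 b1 p' q' := by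
  rcases h with h | h
  · obtain ⟨a1, b1, h4, h5, h6⟩ := h.sub hg h1 h2 h3
    exact ⟨a1, b1, h4, h5, Or.inl h6⟩
  · obtain ⟨a1, b1, h4, h5, h6⟩ := h.sub hg h1 h2 h3
    exact ⟨a1, b1, h4, h5, Or.inr h6⟩

/-- some arc is crossed twice by `g`, on two intervals which are disjoint modulo one -/
def Double (g : ℝ → ℝ) : Prop := ∃ (a b a' b' p q : ℝ) (n : ℤ), b < a' ∧ b' < a + 1 ∧ p < q ∧
  q < p + 1 ∧ Cr g a b p q ∧ Cr g a' b' (p + n) (q + n)

theorem Double.neg {g : ℝ → ℝ} (h : Double (fun t => - g t)) : Double g := by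
  obtain ⟨a, b, a', b', p, q, n, h1, h2, h3, h4, h5, h6⟩ := h
  have key : ∀ a b p q, Cr (fun t => - g t) a b p q → Cr g a b (-q) (-p) := by
    rintro a b p q (h | h)
    · refine Or.inr ⟨h.lt, by linarith [h.left], by linarith [h.right], ?_⟩
      intro t ht
      have := h.mem t ht
      exact ⟨by linarith [this.2], by linarith [this.1]⟩
    · refine Or.inl ⟨h.lt, by linarith [h.left], by linarith [h.right], ?_⟩
      intro t ht
      have := h.mem t ht
      exact ⟨by linarith [this.2], by linarith [this.1]⟩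
  refine ⟨a, b, a', b', -q, -p, -n, h1, h2, by linarith, by linarith, key _ _ _ _ h5, ?_⟩
  have := key _ _ _ _ h6
  push_cast
  have e1 : -(q + (n : ℝ)) = -q + -n := by ring
  have e2 : -(p + (n : ℝ)) = -p + -n := by ring
  rwa [e1, e2] at this

/-- down and up -/
theorem double_of_min {g : ℝ → ℝ} (hg : Continuous g) {s t u p q : ℝ} (hst : s < t) (htu : t < u)
    (hu : u ≤ s + 1) (h1 : g t < p) (h2 : p < q) (h3 : q < g s) (h4 : q < g u) (h5 : q < p + 1) :
    Double g := by
  obtain ⟨a, b, ha, hb, hd⟩ := exists_down hg.continuousOn hst.le h3.le h2 h1.le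
  obtain ⟨a', b', ha', hb', hu'⟩ := exists_up hg.continuousOn htu.le h1.le h2 h4.le
  have hbt : b ≠ t := by
    intro h
    have := hd.right
    rw [h] at this
    linarith
  have hta : t ≠ a' := by
    intro h
    have := hu'.left
    rw [← h] at this
    linarith
  have hsa : a ≠ s := by
    intro h
    have := hd.left
    rw [h] at this
    linarith
  refine ⟨a, b, a', b', p, q, 0, ?_, ?_, h2, h5, Or.inr hd, ?_⟩
  · exact (lt_of_le_of_ne hb hbt).trans (lt_of_le_of_ne ha' hta)
  · have := lt_of_le_of_ne ha (Ne.symm hsa)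
    linarith
  · push_cast
    rw [add_zero, add_zero]
    exact Or.inl hu'

/-- the case of nonnegative degree -/
theorem circle_map_pos {g : ℝ → ℝ} (hg : Continuous g) {d : ℤ} (hd0 : 0 ≤ d)
    (hd : ∀ t, g (t + 1) = g t + d) (hsurj : ∀ y : ℝ, ∃ t : ℝ, ∃ n : ℤ, g t = y + n) :
    (d = 1 ∧ Monotone g) ∨ Double g := by
  have hdn : ∀ (n : ℕ) t, g (t + n) = g t + n * d := by
    intro n
    induction n with
    | zero => intro t; simp
    | succ n ih =>
      intro t
      push_cast
      rw [← add_assoc, hd, ih]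
      ring
  rcases lt_trichotomy d 1 with h | h | h
  · -- degree zero
    right
    have hd1 : d = 0 := by omega
    subst hd1
    have hper : ∀ t, g (t + 1) = g t := by intro t; rw [hd]; simp
    -- extrema on [0, 1]
    obtain ⟨tm, htm, hmin⟩ := isCompact_Icc.exists_isMinOn (nonempty_Icc.2 zero_le_one)
      (hg.continuousOn (s := Icc (0 : ℝ) 1))
    obtain ⟨tM, htM, hmax⟩ := isCompact_Icc.exists_isMaxOn (nonempty_Icc.2 zero_le_one)
      (hg.continuousOn (s := Icc (0 : ℝ) 1))
    have hperz : Function.Periodic g 1 := hper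
    have hall : ∀ t, g tm ≤ g t ∧ g t ≤ g tM := by
      intro t
      obtain ⟨y, hy, hyt⟩ := hperz.exists_mem_Ico₀ one_pos t
      rw [hyt]
      exact ⟨hmin ⟨hy.1, hy.2.le⟩, hmax ⟨hy.1, hy.2.le⟩⟩
    have hgap : g tm < g tM := by
      by_contra hc
      push Not at hc
      have hconst : ∀ t, g t = g tm := fun t => le_antisymm ((hall t).2.trans hc) (hall t).1
      obtain ⟨t, n, ht⟩ := hsurj (g tm + 1 / 2)
      rw [hconst] at ht
      have h1 : ((2 * n + 1 : ℤ) : ℝ) = 0 := by push_cast; linarith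
      have h2 : (2 * n + 1 : ℤ) = 0 := by exact_mod_cast h1
      omega
    obtain ⟨q, hq1, hq2⟩ := exists_between (lt_min hgap (show g tm < g tm + 1 by linarith))
    obtain ⟨p, hp1, hp2⟩ := exists_between hq1
    have hqM := hq2.trans_le (min_le_left _ _)
    have hq1' := hq2.trans_le (min_le_right _ _)
    -- a minimum strictly between two maxima
    obtain ⟨s, hs, hs1, hs2⟩ : ∃ s, g s = g tM ∧ s < tm ∧ tm < s + 1 := by
      rcases lt_trichotomy tM tm with h1 | h1 | h1
      · refine ⟨tM, rfl, h1, ?_⟩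
        have hne : ¬ (tM = 0 ∧ tm = 1) := by
          rintro ⟨h2, h3⟩
          have := hper 0
          rw [zero_add] at this
          rw [h2, h3, this] at hgap
          exact lt_irrefl _ hgap
        by_contra hc
        push Not at hc
        apply hne
        constructor <;> linarith [htm.2, htM.1]
      · rw [h1] at hgap
        exact absurd hgap (lt_irrefl _)
      · refine ⟨tM - 1, ?_, ?_, by linarith⟩
        · have := hper (tM - 1)
          rw [sub_add_cancel] at this
          exact this.symm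
        · have hne : ¬ (tm = 0 ∧ tM = 1) := by
            rintro ⟨h2, h3⟩
            have := hper 0
            rw [zero_add] at this
            rw [h2, h3, this] at hgap
            exact lt_irrefl _ hgap
          by_contra hc
          push Not at hc
          apply hne
          constructor <;> linarith [htm.1, htM.2]
    refine double_of_min hg hs1 hs2 le_rfl hp1 hp2 ?_ ?_ (by linarith)
    · rw [hs]; exact hqM
    · rw [hper, hs]; exact hqM
  · -- degree one
    subst h
    by_cases hm : Monotone g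
    · exact Or.inl ⟨rfl, hm⟩
    · right
      unfold Monotone at hm
      push Not at hm
      obtain ⟨s, t0, hst0, hlt0⟩ := hm
      -- reduce to t < s + 1
      obtain ⟨t, hst, ht1, hlt⟩ : ∃ t, s ≤ t ∧ t < s + 1 ∧ g t < g s := by
        set n := ⌊t0 - s⌋₊ with hn
        have h1 : (n : ℝ) ≤ t0 - s := Nat.floor_le (by linarith)
        have h2 : t0 - s < n + 1 := Nat.lt_floor_add_one _
        refine ⟨t0 - n, by linarith, by linarith, ?_⟩
        have h3 := hdn n (t0 - n)
        rw [sub_add_cancel] at h3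
        have h4 : (0 : ℝ) ≤ n * ((1 : ℤ) : ℝ) := by positivity
        linarith
      have hst' : s < t := lt_of_le_of_ne hst (by rintro rfl; exact lt_irrefl _ hlt)
      obtain ⟨q, hq1, hq2⟩ := exists_between (lt_min hlt (show g t < g t + 1 by linarith))
      obtain ⟨p, hp1, hp2⟩ := exists_between hq1
      have hqs := hq2.trans_le (min_le_left _ _)
      have hq1' := hq2.trans_le (min_le_right _ _)
      refine double_of_min hg hst' ht1 le_rfl hp1 hp2 hqs ?_ (by linarith)
      rw [hd]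
      push_cast
      linarith
  · -- degree at least two
    right
    have hd2 : (2 : ℝ) ≤ d := by exact_mod_cast h
    have h01 : g 1 = g 0 + d := by have := hd 0; rwa [zero_add] at this
    obtain ⟨τ, hτ, hgτ⟩ := intermediate_value_Icc zero_le_one hg.continuousOn
      (show g 0 + 1 ∈ Icc (g 0) (g 1) from ⟨by linarith, by linarith⟩)
    obtain ⟨a, b, ha, hb, hu⟩ := exists_up (p := g 0 + 1 / 4) (q := g 0 + 1 / 2) hg.continuousOn
      hτ.1 (by linarith) (by linarith) (by linarith)
    obtain ⟨a', b', ha', hb', hu'⟩ := exists_up (p := g 0 + 1 / 4 + 1) (q := g 0 + 1 / 2 + 1)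
      hg.continuousOn hτ.2 (by linarith) (by linarith) (by linarith)
    have hbt : b ≠ τ := by
      intro h
      have := hu.right
      rw [h] at this
      linarith
    have ha0 : a ≠ 0 := by
      intro h
      have := hu.left
      rw [h] at this
      linarith
    refine ⟨a, b, a', b', g 0 + 1 / 4, g 0 + 1 / 2, 1, ?_, ?_, by linarith, by linarith,
      Or.inl hu, ?_⟩
    · exact (lt_of_le_of_ne hb hbt).trans_le ha'
    · have := lt_of_le_of_ne ha (Ne.symm ha0)
      linarith
    · push_cast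
      exact Or.inl hu'

/-- **Circle maps**: the lift of a continuous surjective map of the circle is monotone of degree
`1`, or antitone of degree `-1`, or crosses some arc twice. -/
theorem circle_map {g : ℝ → ℝ} (hg : Continuous g) {d : ℤ} (hd : ∀ t, g (t + 1) = g t + d)
    (hsurj : ∀ y : ℝ, ∃ t : ℝ, ∃ n : ℤ, g t = y + n) :
    (d = 1 ∧ Monotone g) ∨ (d = -1 ∧ Antitone g) ∨ Double g := by
  rcases le_or_gt 0 d with h | h
  · rcases circle_map_pos hg h hd hsurj with h1 | h1
    · exact Or.inl h1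
    · exact Or.inr (Or.inr h1)
  · right
    have h2 := circle_map_pos (g := fun t => - g t) (d := -d) hg.neg (by omega)
      (by intro t; rw [hd]; push_cast; ring) (by
        intro y
        obtain ⟨t, n, ht⟩ := hsurj (-y)
        refine ⟨t, -n, ?_⟩
        rw [ht]; push_cast; ring)
    rcases h2 with ⟨h3, h4⟩ | h3
    · left
      refine ⟨by omega, fun a b hab => ?_⟩
      have := h4 hab
      linarith
    · right
      exact h3.neg

end Vale.Agent.P155.Q276
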