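import Vale.Agent.P155.H878.Loops
import Vale.Agent.P155.Q276.Cross
import Vale.Agent.P155.TC657.OneLoop

/-!
# P155, literal Q1: loops with the trace of a Jordan curve

`circle_pl`: a loop `γ` with the same trace as the Jordan curve `J` is either `J` up to
reparametrisation, or `γ = J ∘ g` where `g` crosses some arc twice.
-/

namespace Vale.Agent.P155.Q276

open Set Filter Topology Vale.Agent.P155.Q1

theorem coe_eq_iff {x y : ℝ} : (x : S1) = (y : S1) ↔ ∃ n : ℤ, x = y + n := by
  rw [← sub_eq_zero, ← AddCircle.coe_sub, AddCircle.coe_eq_zero_iff]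
  constructor
  · rintro ⟨n, hn⟩
    refine ⟨n, ?_⟩
    simp at hn
    linarith
  · rintro ⟨n, hn⟩
    exact ⟨n, by simp [hn]⟩

theorem dist_coe_le (x y : ℝ) : dist (x : S1) (y : S1) ≤ |x - y| := by
  rw [dist_eq_norm, ← AddCircle.coe_sub]
  exact QuotientAddGroup.norm_mk_le_norm

theorem exists_lift {γ J : PL} (hJ : Function.Injective J.c) (hr : range γ.c ⊆ range J.c) :
    ∃ g : ℝ → ℝ, Continuous g ∧ ∀ t : ℝ, γ.c (t : S1) = J.c (g t : S1) := by
  have emb : IsClosedEmbedding J.c := J.c.continuous.isClosedEmbedding hJ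
  set e := emb.isEmbedding.toHomeomorph with he
  set h : ℝ → S1 := fun t => e.symm ⟨γ.c (t : S1), hr ⟨_, rfl⟩⟩ with hh
  have hc : Continuous h := by
    refine e.symm.continuous.comp (Continuous.subtype_mk ?_ _)
    exact γ.c.continuous.comp (AddCircle.continuous_mk' 1)
  have hJh : ∀ t, J.c (h t) = γ.c (t : S1) := by
    intro t
    have := e.apply_symm_apply ⟨γ.c (t : S1), hr ⟨_, rfl⟩⟩
    exact congrArg Subtype.val this
  obtain ⟨a, ha⟩ := QuotientAddGroup.mk_surjective (h 0)
  obtain ⟨F, ⟨_, hF⟩, _⟩ := (AddCircle.isCoveringMap_coe (1 : ℝ)).existsUnique_continuousMap_lifts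
    ⟨h, hc⟩ 0 a ha
  refine ⟨F, F.continuous, fun t => ?_⟩
  have := congrFun hF t
  rw [← hJh]
  exact congrArg J.c this.symm

theorem exists_degree {γ J : PL} (hJ : Function.Injective J.c) {g : ℝ → ℝ} (hg : Continuous g)
    (h : ∀ t : ℝ, γ.c (t : S1) = J.c (g t : S1)) : ∃ d : ℤ, ∀ t, g (t + 1) = g t + d := by
  have h1 : ∀ t, ∃ n : ℤ, g (t + 1) = g t + n := by
    intro t
    apply coe_eq_iff.1
    apply hJ
    rw [← h, ← h, AddCircle.coe_add_period]
  choose n hn using h1
  have hcont : Continuous n := by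
    rw [Int.isClosedEmbedding_coe_real.isInducing.continuous_iff]
    have : (fun t => ((n t : ℤ) : ℝ)) = fun t => g (t + 1) - g t := by
      funext t
      rw [hn]
      ring
    have h2 : Continuous (fun t => g (t + 1) - g t) := by fun_prop
    rw [← this] at h2
    exact h2
  refine ⟨n 0, fun t => ?_⟩
  rw [hn t, PreconnectedSpace.constant inferInstance hcont (x := t) (y := 0)]

/-- degree one, monotone: the two loops are equal up to reparametrisation -/
theorem dist_zero_of_monotone {γ J : PL} {g : ℝ → ℝ} (hg : Continuous g)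
    (h : ∀ t : ℝ, γ.c (t : S1) = J.c (g t : S1)) (hd : ∀ t, g (t + 1) = g t + 1)
    (hm : Monotone g) : dist γ J = 0 := by
  refine le_antisymm (le_of_forall_pos_le_add fun η hη => ?_) dist_nonneg
  rw [zero_add]
  -- the distance of `g t` to `t` is bounded
  have hp : Function.Periodic (fun t => g t - t) 1 := by
    intro t
    simp only [hd]
    ring
  obtain ⟨M, hM⟩ := isCompact_Icc.exists_bound_of_continuousOn
    ((hg.sub continuous_id).continuousOn (s := Icc (0 : ℝ) 1))
  have hM' : ∀ t, |g t - t| ≤ |M| := by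
    intro t
    obtain ⟨y, hy, hyt⟩ := hp.exists_mem_Ico₀ one_pos t
    rw [hyt]
    exact (hM y ⟨hy.1, hy.2.le⟩).trans (le_abs_self M)
  have huc : UniformContinuous J.c := CompactSpace.uniformContinuous_of_continuous J.c.continuous
  rw [Metric.uniformContinuous_iff] at huc
  obtain ⟨δ, hδ, hJδ⟩ := huc η hη
  obtain ⟨ε, hε0, hε⟩ : ∃ ε : ℝ, 0 < ε ∧ ε < min 1 (δ / (|M| + 1)) :=
    exists_between (lt_min one_pos (by positivity))
  have hε1 : ε < 1 := hε.trans_le (min_le_left _ _)
  have hε2 : ε * |M| < δ := by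
    have h1 : ε < δ / (|M| + 1) := hε.trans_le (min_le_right _ _)
    rw [lt_div_iff₀ (by positivity)] at h1
    nlinarith [abs_nonneg M]
  set F : ℝ → ℝ := fun t => (1 - ε) * g t + ε * t with hF
  have hFc : Continuous F := by fun_prop
  have hFm : StrictMono F := by
    intro a b hab
    have h1 := hm hab.le
    simp only [hF]
    have h2 : (1 - ε) * g a ≤ (1 - ε) * g b := mul_le_mul_of_nonneg_left h1 (by linarith)
    have h3 : ε * a < ε * b := mul_lt_mul_of_pos_left hab hε0
    linarith
  have hFt : ∀ t, |F t - t| ≤ |M| := by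
    intro t
    have : F t - t = (1 - ε) * (g t - t) := by simp only [hF]; ring
    rw [this, abs_mul, abs_of_pos (by linarith)]
    nlinarith [hM' t, abs_nonneg (g t - t)]
  have hFs : Function.Surjective F := by
    apply hFc.surjective
    · refine tendsto_atTop_mono (f := fun t => t - |M|) (fun t => ?_)
        (tendsto_atTop_add_const_right _ _ tendsto_id)
      have := (abs_le.1 (hFt t)).1
      linarith
    · refine tendsto_atBot_mono (g := F) (f := fun t => t + |M|) (fun t => ?_)
        (tendsto_atBot_add_const_right _ _ tendsto_id)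
      have := (abs_le.1 (hFt t)).2
      linarith
  set Fh : ℝ ≃ₜ ℝ := (hFm.orderIsoOfSurjective F hFs).toHomeomorph with hFh
  have hFh1 : ∀ x, Fh (x + 1) = Fh x + 1 := by
    intro x
    show F (x + 1) = F x + 1
    simp only [hF, hd]
    ring
  have hle := ldist_le γ J (TC.circHomeo Fh hFh1)
  rw [dist_def]
  refine hle.trans ?_
  rw [ContinuousMap.dist_le hη.le]
  intro x
  induction x using QuotientAddGroup.induction_on with
  | H t =>
    have h1 : γ.c (t : S1) = J.c (g t : S1) := h t
    show dist (γ.c (t : S1)) (J.c (F t : S1)) ≤ η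
    rw [h1]
    refine (hJδ ?_).le
    refine (dist_coe_le _ _).trans_lt ?_
    have : g t - F t = ε * (g t - t) := by simp only [hF]; ring
    rw [this, abs_mul, abs_of_pos hε0]
    exact (mul_le_mul_of_nonneg_left (hM' t) hε0.le).trans_lt hε2

/-- a loop and its reverse are at distance zero -/
theorem dist_neg (J : PL) : dist (⟨J.c.comp ((Homeomorph.neg S1 : S1 ≃ₜ S1) : C(S1, S1))⟩ : PL) J = 0 := by
  refine le_antisymm ?_ dist_nonneg
  rw [dist_def]
  refine (ldist_le _ J (Homeomorph.neg S1)).trans (le_of_eq (dist_self _))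

/-- **Loops with the trace of a Jordan curve.** -/
theorem circle_pl {γ J : PL} (hJ : Function.Injective J.c) (hr : range γ.c = range J.c) :
    dist γ J = 0 ∨ ∃ g : ℝ → ℝ, Continuous g ∧ (∀ t : ℝ, γ.c (t : S1) = J.c (g t : S1)) ∧
      (∃ d : ℤ, ∀ t, g (t + 1) = g t + d) ∧ Double g := by
  obtain ⟨g, hg, h⟩ := exists_lift hJ hr.le
  obtain ⟨d, hd⟩ := exists_degree hJ hg h
  have hsurj : ∀ y : ℝ, ∃ t : ℝ, ∃ n : ℤ, g t = y + n := by
    intro y
    obtain ⟨x, hx⟩ : J.c (y : S1) ∈ range γ.c := hr.ge ⟨_, rfl⟩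
    induction x using QuotientAddGroup.induction_on with
    | H t =>
      refine ⟨t, coe_eq_iff.1 (hJ ?_)⟩
      rw [← h t]
      exact hx
  rcases circle_map hg hd hsurj with ⟨h1, h2⟩ | ⟨h1, h2⟩ | h2
  · left
    subst h1
    exact dist_zero_of_monotone hg h (by simpa using hd) h2
  · left
    subst h1
    have h3 : dist γ (⟨J.c.comp ((Homeomorph.neg S1 : S1 ≃ₜ S1) : C(S1, S1))⟩ : PL) = 0 := by
      refine dist_zero_of_monotone (g := fun t => - g t) hg.neg ?_ ?_ ?_
      · intro t
        rw [h t]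
        show J.c (g t : S1) = J.c (- ((- g t : ℝ) : S1))
        rw [← AddCircle.coe_neg, neg_neg]
      · intro t
        rw [hd]
        push_cast
        ring
      · intro a b hab
        have := h2 hab
        simp only
        linarith
    have h4 := dist_triangle γ (⟨J.c.comp ((Homeomorph.neg S1 : S1 ≃ₜ S1) : C(S1, S1))⟩ : PL) J
    rw [h3, dist_neg, add_zero] at h4
    exact le_antisymm h4 dist_nonneg
  · right
    exact ⟨g, hg, h, ⟨d, hd⟩, h2⟩

end Vale.Agent.P155.Q276
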